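import Vale.Agent.P251.F.LTCyc

/-!
# P261: the zero line of the `K(h)`-local Adams–Novikov spectral sequence of `S/p`

Interface.  `Lev p h H n`: a law `F` over `k[[X_0, …, X_{n-1}]]` with `v_i = 0` for `i < m`,
`v_{m+i} = X_i` (`m + n = h`), with the action of `AutF H` up to coordinate changes.
`Lev.inv w`: the forms of weight `w`.
-/

open Vale.Agent.P251.F Vale.Agent.P217

namespace Vale.Agent.P261

/-- A law over `k[[X_0, …, X_{n-1}]]` with `v_i = 0` for `i < m`, `v_{m+i} = X_i`, and an action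
of `AutF H` up to coordinate changes. -/
structure Lev (p h : ℕ) {k : Type} [Field k] (H : Law k) (n : ℕ) where
  m : ℕ
  hm : m + n = h
  F : Law (MvPowerSeries (Fin n) k)
  φ : AutF H.toFG → (MvPowerSeries (Fin n) k →+* MvPowerSeries (Fin n) k)
  g : AutF H.toFG → InvSeries (MvPowerSeries (Fin n) k)
  law : ∀ γ, g γ • F.map (φ γ) = F
  vlow : ∀ i < m, vv p i F = 0
  vX : ∀ i : Fin n, vv p (m + i) F = MvPowerSeries.X i
  alg : ∀ γ c, φ γ (MvPowerSeries.C c) = MvPowerSeries.C c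
  red : ∀ γ a, MvPowerSeries.constantCoeff (φ γ a) = MvPowerSeries.constantCoeff a
  gred : ∀ γ, InvSeries.map MvPowerSeries.constantCoeff (g γ) = γ.toInv
  Fred : F.map MvPowerSeries.constantCoeff = H
  cont : ∀ M : ℕ, ∃ m' : ℕ, ∀ γ ∈ AutF.congr H.toFG m', ∀ (a : MvPowerSeries (Fin n) k)
    (e : Fin n →₀ ℕ), e.degree < M → MvPowerSeries.coeff e (φ γ a) = MvPowerSeries.coeff e a

/-- The forms of weight `w`. -/
def Lev.inv {p h : ℕ} {k : Type} [Field k] {H : Law k} {n : ℕ} (L : Lev p h H n) (w : ℤ) :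
    AddSubgroup (MvPowerSeries (Fin n) k) where
  carrier := {a | ∀ γ, L.φ γ a = (((L.g γ).lead ^ w : (MvPowerSeries (Fin n) k)ˣ) :
    MvPowerSeries (Fin n) k) * a}
  zero_mem' γ := by rw [map_zero, mul_zero]
  add_mem' {a b} ha hb γ := by rw [map_add, ha γ, hb γ, mul_add]
  neg_mem' {a} ha γ := by rw [map_neg, ha γ, mul_neg]

/-- The forms of all weights are finite in number, and zero in negative weights. -/
def Lev.IsFin {p h : ℕ} {k : Type} [Field k] {H : Law k} {n : ℕ} (L : Lev p h H n) : Prop :=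
  ∀ w : ℤ, (L.inv w : Set (MvPowerSeries (Fin n) k)).Finite ∧
    (w < 0 → ∀ a ∈ L.inv w, a = 0)

/-- The same data over `k[[X]]`, `m = h - 1`. -/
structure Curve (p m : ℕ) {k : Type} [Field k] (H : Law k) where
  F : Law (PowerSeries k)
  φ : AutF H.toFG → (PowerSeries k →+* PowerSeries k)
  g : AutF H.toFG → InvSeries (PowerSeries k)
  law : ∀ γ, g γ • F.map (φ γ) = F
  vlow : ∀ i < m, vv p i F = 0
  vX : vv p m F = PowerSeries.X
  alg : ∀ γ c, φ γ (PowerSeries.C c) = PowerSeries.C c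
  red : ∀ γ a, PowerSeries.constantCoeff (φ γ a) = PowerSeries.constantCoeff a
  gred : ∀ γ, InvSeries.map PowerSeries.constantCoeff (g γ) = γ.toInv
  Fred : F.map PowerSeries.constantCoeff = H
  cont : ∀ M : ℕ, ∃ m' : ℕ, ∀ γ ∈ AutF.congr H.toFG m', ∀ (a : PowerSeries k),
    ∀ e < M, PowerSeries.coeff e (φ γ a) = PowerSeries.coeff e a

/-- The forms of weight `w` on the curve. -/
def Curve.inv {p m : ℕ} {k : Type} [Field k] {H : Law k} (L : Curve p m H) (w : ℤ) :
    AddSubgroup (PowerSeries k) where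
  carrier := {a | ∀ γ, L.φ γ a = (((L.g γ).lead ^ w : (PowerSeries k)ˣ) : PowerSeries k) * a}
  zero_mem' γ := by rw [map_zero, mul_zero]
  add_mem' {a b} ha hb γ := by rw [map_add, ha γ, hb γ, mul_add]
  neg_mem' {a} ha γ := by rw [map_neg, ha γ, mul_neg]

/-- The truncation `k[[X_0, …, X_{r-1}]] → k[X]/(X)^(j+1)`. -/
noncomputable def tr (k : Type) [Field k] (r j : ℕ) : MvPowerSeries (Fin r) k →+* EE k r j :=
  (MvPowerSeries.truncTotalAlgHom (Fin r) k (j + 1)).toRingHom

end Vale.Agent.P261
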