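import Mathlib.NumberTheory.Padics.PadicIntegers
import Mathlib.RingTheory.Finiteness.Basic

/-!
# P261: derived `p`-complete abelian groups (definition)
-/

namespace Vale.Agent.P261

/-- `A` is derived `p`-complete: the equations `x i - p x (i + 1) = a i` have exactly one
solution. -/
def DerComplete (p : ℕ) (A : Type*) [AddCommGroup A] : Prop :=
  ∀ a : ℕ → A, ∃! x : ℕ → A, ∀ i, x i - p • x (i + 1) = a i

end Vale.Agent.P261
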