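import Vale.Agent.P261.H468.MainT
import Vale.Agent.P261.H660.P1
import Vale.Agent.P261.H685.P2

/-!
# P261: the homotopy of `L_{K(n)} S` in a stable homotopy category, `n² < 2 (p - 1)`
-/

open CategoryTheory MonoidalCategory Limits Pretriangulated MonObj

set_option linter.unusedSectionVars false

universe v u

namespace Vale.Agent.P261

open Vale.Agent.P251 Vale.Agent.P251.T Vale.Agent.P251.M Vale.Agent.P251.S Vale.Agent.P251.F
  Vale.Agent.P251.I Vale.Agent.P251.Z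

theorem sq_add_one_ne {p n : ℕ} (hp : p.Prime) (hp2 : p ≠ 2) :
    n * n + 1 ≠ 2 * (p - 1) := by
  intro h
  have h1 := hp.eq_two_or_odd'.resolve_left hp2
  obtain ⟨a, ha⟩ := h1
  obtain ⟨b, hb⟩ | ⟨b, hb⟩ := Nat.even_or_odd n
  · rw [hb] at h
    have h2 : (b + b) * (b + b) = 2 * (2 * (b * b)) := by ring
    omega
  · rw [hb] at h
    have h2 : (2 * b + 1) * (2 * b + 1) = 4 * (b * b + b) + 1 := by ring
    omega

variable {T : Type u} [Category.{v} T] [Preadditive T] [HasZeroObject T]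
    [HasShift T ℤ] [∀ n : ℤ, (shiftFunctor T n).Additive] [Pretriangulated T] [IsTriangulated T]
    [MonoidalCategory T] [SymmetricCategory T] [TensorTriangulated T] [MonoidalClosed T]
    [HasCoproducts.{0} T] [HasProducts.{0} T] [StableCat T] [LocallySmall.{0} T]

theorem smul_id_eq_zero {K : T} [MonObj K] {p : ℕ} (h : (p : ℤ) • η[K] = 0) :
    (p : ℤ) • 𝟙 K = 0 := by
  have h1 : (λ_ K).inv ≫ η[K] ▷ K ≫ μ[K] = 𝟙 K := by
    rw [MonObj.one_mul, Iso.inv_hom_id]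
  have h2 : ((p : ℤ) • η[K]) ▷ K = (p : ℤ) • (η[K] ▷ K) :=
    map_zsmul ((tensorRight K).mapAddHom (X := 𝟙_ T) (Y := K)) (p : ℤ) η[K]
  have h3 : ((0 : 𝟙_ T ⟶ K)) ▷ K = 0 := (tensorRight K).map_zero _ _
  rw [h, h3] at h2
  calc (p : ℤ) • 𝟙 K = (p : ℤ) • ((λ_ K).inv ≫ η[K] ▷ K ≫ μ[K]) := by rw [h1]
    _ = (λ_ K).inv ≫ ((p : ℤ) • (η[K] ▷ K)) ≫ μ[K] := by
      rw [Preadditive.zsmul_comp, Preadditive.comp_zsmul]
    _ = 0 := by rw [← h2, zero_comp, comp_zero]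

variable (Fs : SpaceFunctor T) {p n : ℕ} [Fact p.Prime] (hp : p ≠ 2)
    (hn : 1 ≤ n) (hsq : n * n < 2 * (p - 1)) {K : T} [MonObj K] [IsCommMonObj K]
    (o : Oriented Fs K) (hK : IsMoravaPos Fs p n o) {L : T} (f : 𝟙_ T ⟶ L) (hf : Z.IsLoc K f)

include hK hf in
theorem derComplete_pi (t : ℤ) : DerComplete p ((𝟙_ T)⟦t⟧ ⟶ L) :=
  derComplete_of_isLocal (smul_id_eq_zero hK.char) hf.2 _

/-- the shift of the sphere -/
noncomputable def sphShift (t : ℤ) : ((𝟙_ T)⟦t⟧)⟦(1 : ℤ)⟧ ≅ (𝟙_ T)⟦t + 1⟧ :=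
  ((shiftFunctorAdd T t 1).app (𝟙_ T)).symm

include hp hn hsq hK hf

/-- `π_t L = 0` if `2 (p - 1)` divides none of `t, t + 1, …, t + n²`. -/
theorem pi_zero (t : ℤ) (ht : ∀ s : ℕ, s ≤ n * n → ¬ (2 * ((p : ℤ) - 1)) ∣ t + (s : ℤ))
    (x : (𝟙_ T)⟦t⟧ ⟶ L) : x = 0 := by
  obtain ⟨C, i, δ, hC⟩ := distinguished_cocone_triangle ((p : ℤ) • 𝟙 (𝟙_ T))
  have Q := moorePi Fs hp hn hsq o hK f hf hC
  exact (derComplete_pi Fs o hK f hf t).eq_zero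
    (fun a => exists_smul_of_zero hC L (Q.zero t ht) a) x

/-- Finitely many classes modulo `p` in stems divisible by `2 (p - 1)`. -/
theorem pi_rep (t : ℤ) (ht : (2 * ((p : ℤ) - 1)) ∣ t) :
    ∃ S : Set ((𝟙_ T)⟦t⟧ ⟶ L), S.Finite ∧ ∀ x, ∃ s ∈ S, ∃ y : (𝟙_ T)⟦t⟧ ⟶ L,
      x = s + p • y := by
  obtain ⟨C, i, δ, hC⟩ := distinguished_cocone_triangle ((p : ℤ) • 𝟙 (𝟙_ T))
  have Q := moorePi Fs hp hn hsq o hK f hf hC
  exact exists_rep hC L (Q.fin t ht)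

/-- No `p`-torsion in stems divisible by `2 (p - 1)`. -/
theorem pi_torsionfree (t : ℤ) (ht : (2 * ((p : ℤ) - 1)) ∣ t) (x : (𝟙_ T)⟦t⟧ ⟶ L)
    (hx : p • x = 0) : x = 0 := by
  obtain ⟨C, i, δ, hC⟩ := distinguished_cocone_triangle ((p : ℤ) • 𝟙 (𝟙_ T))
  have Q := moorePi Fs hp hn hsq o hK f hf hC
  have hpp : p.Prime := Fact.out
  have hne := sq_add_one_ne hpp hp (n := n)
  have hsq' : ((n * n : ℕ) : ℤ) + 1 < 2 * ((p : ℤ) - 1) := by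
    have h1 : 1 ≤ p := hpp.one_le
    have h2 : n * n + 1 < 2 * (p - 1) := by omega
    zify [h1] at h2
    exact_mod_cast h2
  refine eq_zero_of_zero hC L (fun z => ?_) x hx
  have h0 := Q.zero (t + 1) (fun s hs hd => by
    have h4 : (2 * ((p : ℤ) - 1)) ∣ ((s : ℤ) + 1) := by
      rw [add_assoc, add_comm 1 (s : ℤ)] at hd
      exact (Int.dvd_add_right ht).1 hd
    have h5 := Int.le_of_dvd (by omega) h4
    have h6 : (s : ℤ) ≤ ((n * n : ℕ) : ℤ) := by exact_mod_cast hs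
    omega) ((sphShift t).inv ≫ z)
  rw [← cancel_epi (sphShift (T := T) t).inv, h0, comp_zero]

/-- `π_t L = 0` in the negative stems divisible by `2 (p - 1)`, `n ≥ 2`. -/
theorem pi_neg (hn2 : 2 ≤ n) (t : ℤ) (ht : (2 * ((p : ℤ) - 1)) ∣ t) (h0 : t < 0)
    (x : (𝟙_ T)⟦t⟧ ⟶ L) : x = 0 := by
  obtain ⟨C, i, δ, hC⟩ := distinguished_cocone_triangle ((p : ℤ) • 𝟙 (𝟙_ T))
  have Q := moorePi Fs hp hn hsq o hK f hf hC
  exact (derComplete_pi Fs o hK f hf t).eq_zero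
    (fun a => exists_smul_of_zero hC L (Q.neg hn2 t ht h0) a) x

/-- The torsion of `π_t L` is finite if `2 (p - 1)` divides `t + 1`. -/
theorem pi_torsion (t : ℤ) (ht : (2 * ((p : ℤ) - 1)) ∣ t + 1) :
    {x : (𝟙_ T)⟦t⟧ ⟶ L | ∃ m : ℕ, m ≠ 0 ∧ m • x = 0}.Finite := by
  obtain ⟨C, i, δ, hC⟩ := distinguished_cocone_triangle ((p : ℤ) • 𝟙 (𝟙_ T))
  have Q := moorePi Fs hp hn hsq o hK f hf hC
  refine (derComplete_pi Fs o hK f hf t).finite_torsion (finite_of_finite hC L ?_)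
  have := Q.fin (t + 1) ht
  exact Finite.of_injective (fun z : ((𝟙_ T)⟦t⟧)⟦(1 : ℤ)⟧ ⟶ L ⊗ C => (sphShift t).inv ≫ z)
    (fun x y hxy => (cancel_epi (sphShift (T := T) t).inv).1 hxy)

/-- `π_t L` is torsion-free if `2 (p - 1)` divides `t + 1 < 0`, `n ≥ 2`. -/
theorem pi_torsionfree_neg (hn2 : 2 ≤ n) (t : ℤ) (ht : (2 * ((p : ℤ) - 1)) ∣ t + 1)
    (h0 : t + 1 < 0) (x : (𝟙_ T)⟦t⟧ ⟶ L) (hx : p • x = 0) : x = 0 := by
  obtain ⟨C, i, δ, hC⟩ := distinguished_cocone_triangle ((p : ℤ) • 𝟙 (𝟙_ T))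
  have Q := moorePi Fs hp hn hsq o hK f hf hC
  refine eq_zero_of_zero hC L (fun z => ?_) x hx
  rw [← cancel_epi (sphShift (T := T) t).inv, Q.neg hn2 (t + 1) ht h0 ((sphShift t).inv ≫ z),
    comp_zero]

end Vale.Agent.P261
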