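import Vale.Agent.P251.St.Result2
import Vale.Agent.P251.X.KExists
import Vale.Agent.P261.H468.MainPi
import Vale.Agent.P261.H8.P3
import Vale.Agent.P261.H766.P4

/-!
# P261: the homotopy of `L_{K(n)} S` for `n² < 2 (p - 1)`, in the statement layer of P251
-/

open CategoryTheory MonoidalCategory Limits MonObj

open scoped TensorProduct

namespace Vale.Agent.P261

open Vale.Agent.P251 Vale.Agent.P251.St Vale.Agent.P251.St.SHCat

/-- Morava K-theories and the `K(n)`-local sphere exist. -/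
theorem exists_morava_loc (T : SHCat) (S : Susp T) (p n : ℕ) [hp : Fact p.Prime] (hp2 : p ≠ 2) :
    ∃ (K : RingSp T) (L : T.C) (f : Hom T.one L), IsMorava S K p n ∧ IsLoc K.obj f := by
  have := locallySmall_self.{0} T.C
  obtain ⟨K, hK⟩ := exists_morava p hp.out.ne_zero T S
    (fun n => X.exists_isMorava S.toSpaceFunctor hp2 n)
  obtain ⟨L, f, hf⟩ := exists_isLoc T (K n).obj T.one
  exact ⟨K n, L, f, hK n, hf⟩

/-- A derived `p`-complete group without `p`-torsion is torsion-free. -/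
theorem DerComplete.eq_zero_of_nsmul {p : ℕ} [hp : Fact p.Prime] {A : Type*} [AddCommGroup A]
    (h : DerComplete p A) (h0 : ∀ x : A, p • x = 0 → x = 0) {m : ℕ} (hm : m ≠ 0) {x : A}
    (hx : m • x = 0) : x = 0 := by
  obtain ⟨a, m', hm', rfl⟩ := Nat.exists_eq_pow_mul_and_not_dvd hm p hp.out.ne_one
  have h1 : ∀ (a : ℕ) (y : A), p ^ a • y = 0 → y = 0 := by
    intro a
    induction a with
    | zero => intro y hy; simpa using hy
    | succ a ih =>
      intro y hy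
      rw [pow_succ, mul_smul] at hy
      exact h0 y (ih _ hy)
  rw [mul_smul] at hx
  exact H685.coprime_zero h ((Nat.Prime.coprime_iff_not_dvd hp.out).2 hm').symm (h1 a _ hx)

section

variable (T : SHCat) (S : Susp T) {p n : ℕ} [hp : Fact p.Prime] (hp2 : p ≠ 2) (hn : 1 ≤ n)
  (hsq : n * n < 2 * (p - 1)) {K : RingSp T} {L : T.C} {f : Hom T.one L}
  (hK : IsMorava S K p n) (hf : IsLoc K.obj f)

omit hp in
include hn hK in
/-- The Morava K-theory in the form of the library. -/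
theorem exists_oriented : ∃ o : Z.Oriented S.toSpaceFunctor K.obj,
    Z.IsMoravaPos S.toSpaceFunctor p n o := by
  obtain ⟨m, rfl⟩ : ∃ m, n = m + 1 := ⟨n - 1, by omega⟩
  obtain ⟨_, o, ho⟩ := isMorava_of S K hK
  exact ⟨o, ho⟩

include hp2 hn hsq hK hf

theorem sh_zero (t : ℤ) (ht : ∀ s : ℕ, s ≤ n * n → ¬ (2 * ((p : ℤ) - 1)) ∣ t + (s : ℤ))
    (x : Hom (sphere T t) L) : x = 0 := by
  have := locallySmall_self.{0} T.C
  obtain ⟨o, ho⟩ := exists_oriented T S hn hK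
  exact pi_zero S.toSpaceFunctor hp2 hn hsq o ho f ((isLoc_iff _ f).1 hf) t ht x

theorem sh_free (t : ℤ) (ht : (2 * ((p : ℤ) - 1)) ∣ t) :
    ∃ r : ℕ, Nonempty (Hom (sphere T t) L ≃+ (Fin r → ℤ_[p])) ∧ (2 ≤ n → t < 0 → r = 0) := by
  have := locallySmall_self.{0} T.C
  obtain ⟨o, ho⟩ := exists_oriented T S hn hK
  have hf' := (isLoc_iff _ f).1 hf
  obtain ⟨Q, hQ, hQ'⟩ := pi_rep S.toSpaceFunctor hp2 hn hsq o ho f hf' t ht
  obtain ⟨r, ⟨e⟩⟩ := (derComplete_pi S.toSpaceFunctor o ho f hf' t).exists_free Q hQ hQ'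
    (pi_torsionfree S.toSpaceFunctor hp2 hn hsq o ho f hf' t ht)
  refine ⟨r, ⟨e⟩, fun hn2 h0 => ?_⟩
  by_contra hr
  have h1 : e.symm (fun _ => 1) = 0 :=
    pi_neg S.toSpaceFunctor hp2 hn hsq o ho f hf' hn2 t ht h0 _
  have h2 : (fun _ : Fin r => (1 : ℤ_[p])) = 0 := by
    rw [← e.apply_symm_apply (fun _ => 1), h1, map_zero]
  exact one_ne_zero (congrFun h2 ⟨0, Nat.pos_of_ne_zero hr⟩)

theorem sh_torsion (t : ℤ) (ht : (2 * ((p : ℤ) - 1)) ∣ t + 1) :
    {x : Hom (sphere T t) L | ∃ m : ℕ, m ≠ 0 ∧ m • x = 0}.Finite := by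
  have := locallySmall_self.{0} T.C
  obtain ⟨o, ho⟩ := exists_oriented T S hn hK
  exact pi_torsion S.toSpaceFunctor hp2 hn hsq o ho f ((isLoc_iff _ f).1 hf) t ht

theorem sh_torsionfree (hn2 : 2 ≤ n) (t : ℤ) (ht : (2 * ((p : ℤ) - 1)) ∣ t + 1)
    (h0 : t + 1 < 0) : {x : Hom (sphere T t) L | ∃ m : ℕ, m ≠ 0 ∧ m • x = 0} ⊆ {0} := by
  have := locallySmall_self.{0} T.C
  obtain ⟨o, ho⟩ := exists_oriented T S hn hK
  have hf' := (isLoc_iff _ f).1 hf
  rintro x ⟨m, hm, hx⟩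
  exact (derComplete_pi S.toSpaceFunctor o ho f hf' t).eq_zero_of_nsmul
    (pi_torsionfree_neg S.toSpaceFunctor hp2 hn hsq o ho f hf' hn2 t ht h0) hm hx

theorem sh_rat (t : ℤ) (ht : (2 * ((p : ℤ) - 1)) ∣ t + 1) :
    ∃ _ : Module ℤ_[p] (Hom (sphere T t) L),
      Module.Finite ℚ_[p] (ℚ_[p] ⊗[ℤ_[p]] Hom (sphere T t) L) →
        Module.Finite ℤ_[p] (Hom (sphere T t) L) := by
  have := locallySmall_self.{0} T.C
  obtain ⟨o, ho⟩ := exists_oriented T S hn hK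
  have hf' := (isLoc_iff _ f).1 hf
  exact (derComplete_pi S.toSpaceFunctor o ho f hf' t).exists_module_of_rat
    (pi_torsion S.toSpaceFunctor hp2 hn hsq o ho f hf' t ht)

theorem sh_moore {C : T.C} {a : Hom T.one C} {b : Hom C (sus T.one)}
    (h : Dist (zmul (p : ℤ) (ident T.one)) a b) (t : ℤ) :
    ((∀ s : ℕ, s ≤ n * n → ¬ (2 * ((p : ℤ) - 1)) ∣ t + (s : ℤ)) →
      ∀ x : Hom (sphere T t) (ten L C), x = 0) ∧
    ((2 * ((p : ℤ) - 1)) ∣ t → Finite (Hom (sphere T t) (ten L C))) := by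
  have := locallySmall_self.{0} T.C
  obtain ⟨o, ho⟩ := exists_oriented T S hn hK
  have hf' := (isLoc_iff _ f).1 hf
  have Q := moorePi S.toSpaceFunctor hp2 hn hsq o ho f hf' h
  exact ⟨Q.zero t, Q.fin t⟩

end

end Vale.Agent.P261
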