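import Vale.Agent.P251.S.ExactCouple
import Vale.Agent.P251.S.LimComplex
import Mathlib.Tactic.Abel

/-!
# P261: two lemmas on exact couples and towers of complexes

* `Couple.eq_zero_of_van`: if the cohomology of `E_1` vanishes in positive filtration in a stem and
  the tower converges, then `D^0 → E^0` is injective in this stem;
* `TowerCx.lim_cobdy_of_lift`: vanishing of the cohomology of the limit of a tower of complexes.
-/

universe u v

namespace Vale.Agent.P251.S

theorem Couple.eq_zero_of_van (C : Couple.{u, v}) {n : ℤ} (hv : ∀ s, C.Van s n) (s₁ : ℕ)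
    (hc : ∀ s, s₁ ≤ s → ∀ y : C.D (s + 1) n, C.i s n y = 0) (y : C.D 0 n)
    (hy : C.j 0 n y = 0) : y = 0 := by
  obtain ⟨y', rfl⟩ := C.exact_j 0 n y hy
  obtain ⟨u, hu, hu0⟩ := C.exists_compatible (s := 0) (fun s' _ => hv s') y'
  have h1 : ∀ r, s₁ ≤ r → u r = 0 := by
    intro r hr
    rw [← hu r]
    exact hc (0 + r) (by omega) _
  have h2 : ∀ k r, r + k = s₁ → u r = 0 := by
    intro k
    induction k with
    | zero => intro r hr; exact h1 r (by omega)
    | succ k ih =>
      intro r hr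
      rw [← hu r, ih (r + 1) (by omega), map_zero]
  exact hu0.symm.trans (h2 s₁ 0 (by omega))

/-- If cocycles of degree `s` lift along the tower and `H^{s+1}` vanishes at every level, then
`H^{s+1}` of the limit vanishes. -/
theorem TowerCx.lim_cobdy_of_lift (T : TowerCx.{u}) {s : ℕ}
    (hlift : ∀ j, ∀ x : T.C s j, T.d s j x = 0 → ∃ x' : T.C s (j + 1),
      T.d s (j + 1) x' = 0 ∧ T.r s j x' = x)
    (hprim : ∀ j, ∀ z : T.C (s + 1) j, T.d (s + 1) j z = 0 → ∃ y : T.C s j, T.d s j y = z)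
    (z : ∀ j, T.C (s + 1) j) (hz : z ∈ T.lim (s + 1)) (hdz : ∀ j, T.d (s + 1) j (z j) = 0) :
    ∃ y ∈ T.lim s, ∀ j, T.d s j (y j) = z j := by
  have hstep : ∀ (j : ℕ) (y : {y : T.C s j // T.d s j y = z j}),
      ∃ y' : {y' : T.C s (j + 1) // T.d s (j + 1) y' = z (j + 1)}, T.r s j y'.1 = y.1 := by
    rintro j ⟨y, hy⟩
    obtain ⟨a, ha⟩ := hprim (j + 1) (z (j + 1)) (hdz (j + 1))
    obtain ⟨x', hx', hrx⟩ := hlift j (T.r s j a - y) (by
      rw [map_sub, T.d_r, ha, hy, hz j, sub_self])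
    exact ⟨⟨a - x', by rw [map_sub, ha, hx', sub_zero]⟩, by
      change T.r s j (a - x') = y
      rw [map_sub, hrx]; abel⟩
  choose f hf using hstep
  obtain ⟨y₀, hy₀⟩ := hprim 0 (z 0) (hdz 0)
  let w : ∀ j, {y : T.C s j // T.d s j y = z j} := fun j =>
    Nat.rec (motive := fun j => {y : T.C s j // T.d s j y = z j}) ⟨y₀, hy₀⟩ (fun j y => f j y) j
  exact ⟨fun j => (w j).1, fun j => hf j (w j), fun j => (w j).2⟩

end Vale.Agent.P251.S
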