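import Vale.Agent.P251.F.LTFinal
import Vale.Agent.P251.C.Main
import Vale.Agent.P251.S.TowerN
import Vale.Agent.P261.H468.TCouple
import Vale.Agent.P261.H124.V2

/-!
# P261: vanishing of the cohomology of the levels `NN p h (j + 1)`

* weights not divisible by `p - 1`;
* degrees above `h²`, if `p - 1` does not divide `h` (also for the limit, by `exists_lift_cocycle`).
-/

open Vale.Agent.P251 Vale.Agent.P251.F Vale.Agent.P251.S

namespace Vale.Agent.P261

variable {p h : ℕ} [Fact p.Prime]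

section notdvd

variable (hp : p ≠ 2) (h) {w : ℤ} (hw : ¬ ((p : ℤ) - 1) ∣ w)

include hp hw

theorem zero_of_not_dvd (j : ℕ) (z : (I.towerN p h w).C 0 j)
    (hz : (I.towerN p h w).d 0 j z = 0) : z = 0 := by
  apply tval_injective
  exact (F3w p hp (NN p h (j + 1)) (epi_NN p h (j + 1))
    (NN.p_eq_zero p h (j + 1)) w hw).1 (tval z)
    (show Cob.wt (NN p h (j + 1)) 0 w from z).2 (congrArg Subtype.val hz)

theorem prim_of_not_dvd (s j : ℕ) (z : (I.towerN p h w).C (s + 1) j)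
    (hz : (I.towerN p h w).d (s + 1) j z = 0) : ∃ y, (I.towerN p h w).d s j y = z := by
  obtain ⟨y, hy, hdy⟩ := (F3w p hp (NN p h (j + 1)) (epi_NN p h (j + 1))
    (NN.p_eq_zero p h (j + 1)) w hw).2 s (tval z)
    (show Cob.wt (NN p h (j + 1)) (s + 1) w from z).2 (congrArg Subtype.val hz)
  exact ⟨(show Cob.wt (NN p h (j + 1)) s w from ⟨y, hy⟩), tval_injective p h hdy⟩

end notdvd

/-- Vanishing of the cohomology above `h²`. -/
theorem prim_of_high (hp : p ≠ 2) (hh : 1 ≤ h) (hd : ¬ (p - 1) ∣ h) (w : ℤ) (s : ℕ)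
    (hs : h * h ≤ s) (j : ℕ) (z : (I.towerN p h w).C (s + 1) j)
    (hz : (I.towerN p h w).d (s + 1) j z = 0) : ∃ y, (I.towerN p h w).d s j y = z := by
  obtain ⟨k, _, _, _, H, _, hH, hk, ⟨X⟩⟩ := hasTTower p h (by omega : h ≠ 0)
  have h1 : C.HZero (AutF H) (X.M w j) (s + 1) :=
    hH.hZero_sq Vale.Agent.P251.C.CV hp hh hk hd (X.M w j) (X.p_smul w j) (s + 1) (by omega)
  obtain ⟨y, hy, hdy⟩ := (GData.ofHonda hH hk hh X).X.vanish j w s h1 (tval z)
    (show Cob.wt (NN p h (j + 1)) (s + 1) w from z).2 (congrArg Subtype.val hz)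
  exact ⟨(show Cob.wt (NN p h (j + 1)) s w from ⟨y, hy⟩), tval_injective p h hdy⟩

/-- Lifting cocycles along the tower from vanishing one degree lower. -/
theorem lift_of_prim {w : ℤ} {s : ℕ}
    (hprim : ∀ j, ∀ z : (I.towerN p h w).C (s + 1) j, (I.towerN p h w).d (s + 1) j z = 0 →
      ∃ y, (I.towerN p h w).d s j y = z) (j : ℕ) (x : (I.towerN p h w).C (s + 1) j)
    (hx : (I.towerN p h w).d (s + 1) j x = 0) :
    ∃ x' : (I.towerN p h w).C (s + 1) (j + 1), (I.towerN p h w).d (s + 1) (j + 1) x' = 0 ∧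
      (I.towerN p h w).r (s + 1) j x' = x := by
  obtain ⟨y, rfl⟩ := hprim j x hx
  obtain ⟨y', rfl⟩ := towerN_r_surjective p h w s j y
  exact ⟨(I.towerN p h w).d s (j + 1) y', TowerCx.d_d _ _ _ _, (TowerCx.d_r _ _ _ _).symm⟩

/-- Vanishing of the cohomology of the limit in weights not divisible by `p - 1`. -/
theorem lim_of_not_dvd (hp : p ≠ 2) (h : ℕ) {w : ℤ} (hw : ¬ ((p : ℤ) - 1) ∣ w) (s : ℕ)
    (z : ∀ j, (I.towerN p h w).C (s + 1) j) (hz : z ∈ (I.towerN p h w).lim (s + 1))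
    (hdz : ∀ j, (I.towerN p h w).d (s + 1) j (z j) = 0) :
    ∃ y ∈ (I.towerN p h w).lim s, ∀ j, (I.towerN p h w).d s j (y j) = z j := by
  refine TowerCx.lim_cobdy_of_lift _ ?_ (fun j z hz => prim_of_not_dvd h hp hw s j z hz) z hz hdz
  cases s with
  | zero =>
    intro j x hx
    exact ⟨0, map_zero _, by rw [map_zero, zero_of_not_dvd h hp hw j x hx]⟩
  | succ s => exact fun j x hx => lift_of_prim (fun j z hz => prim_of_not_dvd h hp hw s j z hz) j x hx

/-- Vanishing of the cohomology of the limit above degree `h²`. -/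
theorem lim_of_high (hp : p ≠ 2) (hh : 1 ≤ h) (hd : ¬ (p - 1) ∣ h) (w : ℤ) (s : ℕ)
    (hs : h * h ≤ s)
    (z : ∀ j, (I.towerN p h w).C (s + 1) j) (hz : z ∈ (I.towerN p h w).lim (s + 1))
    (hdz : ∀ j, (I.towerN p h w).d (s + 1) j (z j) = 0) :
    ∃ y ∈ (I.towerN p h w).lim s, ∀ j, (I.towerN p h w).d s j (y j) = z j := by
  refine TowerCx.lim_cobdy_of_lift _ (fun j x hx => ?_)
    (fun j z hz => prim_of_high hp hh hd w s hs j z hz) z hz hdz
  obtain ⟨z', hw, hdz', hr⟩ := exists_lift_cocycle hp hh hd w j s hs (tval x)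
    (show Cob.wt (NN p h (j + 1)) s w from x).2 (congrArg Subtype.val hx)
  exact ⟨(show Cob.wt (NN p h (j + 2)) s w from ⟨z', hw⟩), Subtype.ext hdz', Subtype.ext hr⟩

end Vale.Agent.P261
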