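import Vale.Agent.P251.S.Final4
import Vale.Agent.P261.H468.Levels

/-!
# P261: the homotopy of `L_{K(h)} S/p` for `h² < 2 (p - 1)`

`F : LocFunctor Dk.K` the localization with respect to the Koszul object of height `h`, `C` the
Moore object of `p`; `q = 2 (p - 1)`.

* `pi_eq_zero`: `π_t (L C) = 0` if `q` divides none of `t, t + 1, …, t + h²`;
* `exists_inj_zeroLine`: if `q ∣ t = 2 w` then `π_t (L C)` embeds into the compatible families of
  `0`-cocycles of weight `w` of the tower `towerN p h w`.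
-/

open CategoryTheory MonoidalCategory Limits Pretriangulated MonObj

set_option linter.unusedSectionVars false

universe v u v' u' w

namespace Vale.Agent.P261

open Vale.Agent.P251 Vale.Agent.P251.T Vale.Agent.P251.M Vale.Agent.P251.F Vale.Agent.P251.I
  Vale.Agent.P251.S

section model

variable {T : Type u} [Category.{v} T] [Preadditive T] [HasZeroObject T] [HasShift T ℤ]
  [∀ n : ℤ, (shiftFunctor T n).Additive] [Pretriangulated T] [MonoidalCategory T]
  [SymmetricCategory T] [TensorTriangulated T]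
  {D : Type u'} [Category.{v'} D] [Preadditive D] [HasZeroObject D] [HasShift D ℤ]
  [∀ n : ℤ, (shiftFunctor D n).Additive] [Pretriangulated D]
  {R : T} [MonObj R] {U : UnitCof R} {Y : T} {F : T ⥤ D} [F.CommShift ℤ]
  [F.IsTriangulated] {P : D} {w : ℤ} {Tw : TowerCx.{w}}

/-- `Van` from the vanishing of the cohomology of the limit. -/
theorem van_of_lim (Φ : U.CobModel Y F P w Tw) {s : ℕ} {m : ℤ} (hm : m + ((s + 1 : ℕ) : ℤ) = 2 * w)
    (hlim : ∀ z ∈ Tw.lim (s + 1), (∀ j, Tw.d (s + 1) j (z j) = 0) →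
      ∃ y ∈ Tw.lim s, ∀ j, Tw.d s j (y j) = z j) :
    (((U.tow Y).map F).couple P).Van s m := by
  refine U.van_of_exact Y F P hm ?_
  intro c hc
  obtain ⟨y, hy, hyd⟩ := hlim (Φ.φ (s + 1) c).1 (Φ.φ (s + 1) c).2 (by
    intro j
    have h := Φ.φ_d (s + 1) c j
    rw [hc, map_zero] at h
    exact h.symm)
  refine ⟨(Φ.φ s).symm ⟨y, hy⟩, ?_⟩
  apply (Φ.φ (s + 1)).injective
  apply Subtype.ext
  funext j
  rw [Φ.φ_d, AddEquiv.apply_symm_apply]
  exact hyd j

/-- The cocycles of `E^0` in internal degree `2 w` are the compatible families of cocycles. -/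
theorem exists_zero_cocycle (Φ : U.CobModel Y F P w Tw) {n : ℤ} (hn : n + ((0 : ℕ) : ℤ) = 2 * w)
    (z : (((U.tow Y).map F).couple P).E 0 n)
    (hz : (((U.tow Y).map F).couple P).IsCocycle z) :
    ∃ x ∈ Tw.lim 0, (∀ j, Tw.d 0 j (x j) = 0) ∧
      ∀ hx : x ∈ Tw.lim 0, U.qE Y F P hn ((Φ.φ 0).symm ⟨x, hx⟩) = z := by
  obtain ⟨c, hc, rfl⟩ := U.exists_cocycle_qE Y F P hn z hz
  refine ⟨(Φ.φ 0 c).1, (Φ.φ 0 c).2, fun j => ?_, fun hx => ?_⟩
  · have h := Φ.φ_d 0 c j
    rw [hc, map_zero] at h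
    exact h.symm
  · congr 1
    exact (Φ.φ 0).symm_apply_apply c

end model

section stems

variable {T : Type u} [Category.{v} T] [Preadditive T] [HasZeroObject T]
    [HasShift T ℤ] [∀ n : ℤ, (shiftFunctor T n).Additive] [Pretriangulated T] [IsTriangulated T]
    [MonoidalCategory T] [SymmetricCategory T] [TensorTriangulated T] [MonoidalClosed T]
    [HasCoproducts.{0} T] [HasProducts.{0} T] [StableCat T]
  {D : MUData T} {U : UnitCof D.R} {p h : ℕ} [Fact p.Prime] {C : T} {i : 𝟙_ T ⟶ C}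
  {Dk : KosData D.P (p : ℤ) h (D.vs p)} {F : LocFunctor Dk.K} (G : GrOut D U p h i F)

/-- the exact couple of the tower `L (J s ⊗ C)` -/
noncomputable abbrev cpl (U : UnitCof D.R) (C : T) {K : T} (F : LocFunctor K) : Couple :=
  ((U.tow (𝟙_ T)).map (tensorRight C ⋙ F.L)).couple (𝟙_ T)

include G in
/-- Vanishing of the cohomology of `E_1` in the internal degrees not divisible by
`2 (p - 1)`. -/
theorem van_of_not_dvd (hp : p ≠ 2) {s : ℕ} {n : ℤ}
    (hn : ¬ (2 * ((p : ℤ) - 1)) ∣ n + ((s + 1 : ℕ) : ℤ)) : (cpl U C F).Van s n := by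
  rcases Int.even_or_odd (n + ((s + 1 : ℕ) : ℤ)) with he | ho
  · obtain ⟨w, hw⟩ := he
    have hw' : n + ((s + 1 : ℕ) : ℤ) = 2 * w := by rw [hw]; ring
    refine van_of_lim (G.model w) hw' ?_
    refine lim_of_not_dvd hp h (fun hd => hn ?_) s
    rw [hw']
    exact mul_dvd_mul_left 2 hd
  · intro b _
    refine ⟨0, ?_⟩
    rw [map_zero]
    exact (UnitCof.E_eq_zero_of_odd G.odd (s + 1) n ho b).symm

include G in
/-- Vanishing of the cohomology of `E_1` in filtrations above `h²`. -/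
theorem van_of_high (hp : p ≠ 2) (hh : 1 ≤ h) (hd : ¬ (p - 1) ∣ h) {s : ℕ}
    (hs : h * h ≤ s) (n : ℤ) : (cpl U C F).Van s n := by
  rcases Int.even_or_odd (n + ((s + 1 : ℕ) : ℤ)) with he | ho
  · obtain ⟨w, hw⟩ := he
    have hw' : n + ((s + 1 : ℕ) : ℤ) = 2 * w := by rw [hw]; ring
    exact van_of_lim (G.model w) hw' (lim_of_high hp hh hd w s hs)
  · intro b _
    refine ⟨0, ?_⟩
    rw [map_zero]
    exact (UnitCof.E_eq_zero_of_odd G.odd (s + 1) n ho b).symm

include G in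
/-- Convergence. -/
theorem i_eq_zero (hp : p ≠ 2) (hh : 1 ≤ h) (hd : ¬ (p - 1) ∣ h) (s : ℕ)
    (hs : h * h + 1 ≤ s) (n : ℤ) (y : (cpl U C F).D (s + 1) n) : (cpl U C F).i s n y = 0 := by
  obtain ⟨c, hc⟩ := built_finEven_RPS D
  obtain ⟨b, hKF⟩ := Dk.built_finEven hc
  exact (U.tow (𝟙_ T)).converge_coeff C F (U.whisker_tow_c _)
    (Dk.built_isRMul (built_isRMul_RPS D.R _)) hKF
    (fun s n hn z => UnitCof.E_eq_zero_of_odd G.odd s n (Int.odd_iff.2 hn) z) (h * h)
    (fun s hs n => van_of_high G hp hh hd hs n) s hs n y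

/-- `π_t (L C)` is `D^0` in the stem `t`. -/
noncomputable def piEquiv (U : UnitCof D.R) (C : T) {K : T} (F : LocFunctor K) (t : ℤ) :
    ((𝟙_ T)⟦t⟧ ⟶ F.L.obj C) ≃+ (cpl U C F).D 0 t :=
  AddEquiv.trans
    { toFun := fun x => x ≫ F.L.map (λ_ C).inv
      invFun := fun y => y ≫ F.L.map (λ_ C).hom
      left_inv := fun x => by
        change (x ≫ F.L.map (λ_ C).inv) ≫ F.L.map (λ_ C).hom = x
        rw [Category.assoc, ← F.L.map_comp, Iso.inv_hom_id, F.L.map_id, Category.comp_id]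
      right_inv := fun x => by
        change (x ≫ F.L.map (λ_ C).hom) ≫ F.L.map (λ_ C).inv = x
        rw [Category.assoc, ← F.L.map_comp, Iso.hom_inv_id, F.L.map_id, Category.comp_id]
      map_add' := fun x y => Preadditive.add_comp _ _ _ x y _ }
    (((U.tow (𝟙_ T)).map (tensorRight C ⋙ F.L)).eD (𝟙_ T) (s := 0) (n := t) (t := t)
      (by simp)).symm

include G in
/-- `π_t (L C) = 0` if `2 (p - 1)` divides none of `t, t + 1, …, t + h²`. -/
theorem pi_eq_zero (hp : p ≠ 2) (hh : 1 ≤ h) (hd : ¬ (p - 1) ∣ h) {t : ℤ}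
    (ht : ∀ s : ℕ, s ≤ h * h → ¬ (2 * ((p : ℤ) - 1)) ∣ t + (s : ℤ))
    (x : (𝟙_ T)⟦t⟧ ⟶ F.L.obj C) : x = 0 := by
  have hv : ∀ s, (cpl U C F).Van s t := by
    intro s
    rcases Nat.lt_or_ge s (h * h) with hs | hs
    · exact van_of_not_dvd G hp (ht (s + 1) (by omega))
    · exact van_of_high G hp hh hd hs t
  have h0 : ∀ y : (cpl U C F).D 0 t, y = 0 := by
    intro y
    refine (cpl U C F).eq_zero_of_van hv (h * h + 1)
      (fun s hs y => i_eq_zero G hp hh hd s hs t y) y ?_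
    rcases Int.even_or_odd t with he | ho
    · obtain ⟨w, hw⟩ := he
      have hw' : t + ((0 : ℕ) : ℤ) = 2 * w := by rw [hw]; push_cast; ring
      obtain ⟨z, hz, hdz, hz'⟩ := exists_zero_cocycle (G.model w) hw' ((cpl U C F).j 0 t y)
        ((cpl U C F).isCocycle_j y)
      have hz0 : z = 0 := by
        funext j
        refine zero_of_not_dvd h hp (fun hd => ?_) j (z j) (hdz j)
        refine ht 0 (Nat.zero_le _) ?_
        rw [hw']
        exact mul_dvd_mul_left 2 hd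
      subst hz0
      rw [← hz' hz]
      have : (⟨0, hz⟩ : (I.towerN p h w).lim 0) = 0 := rfl
      rw [this, map_zero, map_zero]
    · exact UnitCof.E_eq_zero_of_odd G.odd 0 t (by simpa using ho) _
  exact (piEquiv U C F t).injective (by rw [h0 (piEquiv U C F t x), map_zero])

include G in
/-- `π_t (L C)` embeds into the compatible families of `0`-cocycles. -/
theorem exists_inj_zeroLine (hp : p ≠ 2) (hh : 1 ≤ h) (hd : ¬ (p - 1) ∣ h) {t w : ℤ}
    (htw : t = 2 * w)
    (ht : ∀ s : ℕ, 1 ≤ s → s ≤ h * h → ¬ (2 * ((p : ℤ) - 1)) ∣ t + (s : ℤ)) :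
    ∃ f : ((𝟙_ T)⟦t⟧ ⟶ F.L.obj C) → ∀ j, (I.towerN p h w).C 0 j, Function.Injective f ∧
      ∀ x, (∀ j, (I.towerN p h w).r 0 j (f x (j + 1)) = f x j) ∧
        ∀ j, (I.towerN p h w).d 0 j (f x j) = 0 := by
  have hv : ∀ s, (cpl U C F).Van s t := by
    intro s
    rcases Nat.lt_or_ge s (h * h) with hs | hs
    · exact van_of_not_dvd G hp (ht (s + 1) (by omega) (by omega))
    · exact van_of_high G hp hh hd hs t
  have hw' : t + ((0 : ℕ) : ℤ) = 2 * w := by rw [htw]; push_cast; ring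
  have hc : ∀ y : (cpl U C F).D 0 t, ∃ x ∈ (I.towerN p h w).lim 0,
      (∀ j, (I.towerN p h w).d 0 j (x j) = 0) ∧
      ∀ hx : x ∈ (I.towerN p h w).lim 0,
        U.qE (𝟙_ T) (tensorRight C ⋙ F.L) (𝟙_ T) hw' (((G.model w).φ 0).symm ⟨x, hx⟩) =
          (cpl U C F).j 0 t y := fun y =>
    exists_zero_cocycle (G.model w) hw' ((cpl U C F).j 0 t y) ((cpl U C F).isCocycle_j y)
  choose f hf hdf hjf using hc
  refine ⟨fun x => f (piEquiv U C F t x), fun x y hxy => ?_, fun x => ⟨hf _, hdf _⟩⟩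
  change f (piEquiv U C F t x) = f (piEquiv U C F t y) at hxy
  apply (piEquiv U C F t).injective
  rw [← sub_eq_zero]
  refine (cpl U C F).eq_zero_of_van hv (h * h + 1)
    (fun s hs y => i_eq_zero G hp hh hd s hs t y) _ ?_
  rw [map_sub, sub_eq_zero, ← hjf _ (hf _), ← hjf _ (hf _)]
  congr 2
  exact Subtype.ext hxy

end stems

end Vale.Agent.P261
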