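import Vale.Agent.P251.S.Local
import Vale.Agent.P251.S.Loc
import Vale.Agent.P251.Z.KosMoore
import Vale.Agent.P261.H468.DerDef

/-!
# P261: the homotopy of a `K`-local object, for `K` with `p = 0`

* `derComplete_of_isLocal`: `π_t L` is derived `p`-complete;
* `exists_smul_of_zero`, `exists_rep`, `finite_of_finite`: the long exact sequence of
  `p : L ⟶ L`;
* `exists_iso_of_loc`: `L_K 𝟙 ⊗ C ≅ L_{K'} C` if `K` and `K'` have the same acyclic objects.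
-/

open CategoryTheory MonoidalCategory Limits Pretriangulated MonObj

set_option linter.unusedSectionVars false

universe v u

namespace Vale.Agent.P261

open Vale.Agent.P251 Vale.Agent.P251.T Vale.Agent.P251.S

variable {T : Type u} [Category.{v} T] [Preadditive T] [HasZeroObject T] [HasShift T ℤ]
  [∀ n : ℤ, (shiftFunctor T n).Additive] [Pretriangulated T]
  [MonoidalCategory T] [SymmetricCategory T] [TensorTriangulated T]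

/-- `π_t` of a `K`-local object is derived `p`-complete if `p = 0` on `K`. -/
theorem derComplete_of_isLocal [MonoidalClosed T] [HasCoproducts.{0} T] {K L : T} {p : ℕ}
    (hK : (p : ℤ) • 𝟙 K = 0) (hL : IsLocal K L) (X : T) : DerComplete p (X ⟶ L) := by
  obtain ⟨U⟩ := exists_tel (X := fun _ : ℕ => X) (fun _ => ((p : ℤ) • 𝟙 X : X ⟶ X))
  have hU : Acyclic K U.obj := by
    have h1 : K ◁ ((p : ℤ) • 𝟙 X) = 0 := by
      have h2 : K ◁ ((p : ℤ) • 𝟙 X) = (p : ℤ) • (K ◁ 𝟙 X) :=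
        map_zsmul ((tensorLeft K).mapAddHom (X := X) (Y := X)) (p : ℤ) (𝟙 X)
      have h3 : ((p : ℤ) • 𝟙 K) ▷ X = (p : ℤ) • (𝟙 K ▷ X) :=
        map_zsmul ((tensorRight X).mapAddHom (X := K) (Y := K)) (p : ℤ) (𝟙 K)
      rw [h2, whiskerLeft_id, ← id_whiskerRight, ← h3, hK]
      exact (tensorRight X).map_zero _ _
    exact (U.tensL K).isZero_const ⟨1, by rw [pow_one]; exact h1⟩
  have e : ∀ x : X ⟶ L, ((p : ℤ) • 𝟙 X) ≫ x = p • x := by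
    intro x
    rw [Preadditive.zsmul_comp, Category.id_comp, natCast_zsmul]
  intro a
  obtain ⟨x, hx⟩ := hL.exists_solution U hU a
  refine ⟨x, fun i => by rw [← e]; exact hx i, ?_⟩
  intro y hy
  funext n
  have h0 := hL.eq_zero_of_compat U hU (fun n => y n - x n) (fun n => by
    have h1 := hx n
    have h2 := hy n
    rw [← e] at h2
    rw [Preadditive.comp_sub]
    have h3 : x n - ((p : ℤ) • 𝟙 X) ≫ x (n + 1) = y n - ((p : ℤ) • 𝟙 X) ≫ y (n + 1) := by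
      rw [h1, h2]
    have h4 : y n - x n - (((p : ℤ) • 𝟙 X) ≫ y (n + 1) - ((p : ℤ) • 𝟙 X) ≫ x (n + 1)) =
      (y n - ((p : ℤ) • 𝟙 X) ≫ y (n + 1)) - (x n - ((p : ℤ) • 𝟙 X) ≫ x (n + 1)) := by abel
    rw [← sub_eq_zero, h4, h3, sub_self]) n
  exact sub_eq_zero.1 h0

section les

variable {p : ℕ} {C : T} {i : 𝟙_ T ⟶ C} {δ : C ⟶ (𝟙_ T)⟦(1 : ℤ)⟧}
  (hC : Triangle.mk ((p : ℤ) • 𝟙 (𝟙_ T)) i δ ∈ distTriang T) (L : T)

/-- the reduction `L ⟶ L ⊗ C` -/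
def red (i : 𝟙_ T ⟶ C) : L ⟶ L ⊗ C := (ρ_ L).inv ≫ L ◁ i

lemma whisker_p : L ◁ ((p : ℤ) • 𝟙 (𝟙_ T)) = (p : ℤ) • 𝟙 (L ⊗ 𝟙_ T) := by
  have h2 : L ◁ ((p : ℤ) • 𝟙 (𝟙_ T)) = (p : ℤ) • (L ◁ 𝟙 (𝟙_ T)) :=
    map_zsmul ((tensorLeft L).mapAddHom (X := 𝟙_ T) (Y := 𝟙_ T)) (p : ℤ) (𝟙 _)
  rw [h2, whiskerLeft_id]

include hC

/-- The triangle `L ⟶ L ⟶ L ⊗ C ⟶ L⟦1⟧`. -/
theorem exists_dist : ∃ d : L ⊗ C ⟶ L⟦(1 : ℤ)⟧,
    Triangle.mk ((p : ℤ) • 𝟙 L) (red L i) d ∈ distTriang T := by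
  have h1 := tens_dist L hC
  refine ⟨tensδ L δ ≫ (ρ_ L).hom⟦(1 : ℤ)⟧', ?_⟩
  refine isomorphic_distinguished _ h1 _ ?_
  refine Triangle.isoMk _ _ (ρ_ L).symm (ρ_ L).symm (Iso.refl _) ?_ ?_ ?_
  · change ((p : ℤ) • 𝟙 L) ≫ (ρ_ L).inv = (ρ_ L).inv ≫ L ◁ ((p : ℤ) • 𝟙 (𝟙_ T))
    rw [whisker_p, Preadditive.zsmul_comp, Preadditive.comp_zsmul, Category.id_comp,
      Category.comp_id]
  · change red L i ≫ 𝟙 _ = (ρ_ L).inv ≫ L ◁ i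
    rw [Category.comp_id]
    rfl
  · change (tensδ L δ ≫ (ρ_ L).hom⟦(1 : ℤ)⟧') ≫ (ρ_ L).inv⟦(1 : ℤ)⟧' = 𝟙 _ ≫ tensδ L δ
    rw [Category.id_comp, Category.assoc, ← Functor.map_comp, Iso.hom_inv_id,
      CategoryTheory.Functor.map_id]
    exact Category.comp_id _

/-- Exactness at `π_t L`. -/
theorem exists_smul {X : T} (x : X ⟶ L) (hx : x ≫ red L i = 0) : ∃ y : X ⟶ L, x = p • y := by
  obtain ⟨d, hd⟩ := exists_dist hC L
  obtain ⟨y, hy⟩ := Triangle.coyoneda_exact₂ _ hd x hx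
  change X ⟶ L at y
  refine ⟨y, ?_⟩
  have hy' : x = y ≫ ((p : ℤ) • 𝟙 L) := hy
  rw [hy', Preadditive.comp_zsmul, Category.comp_id, natCast_zsmul]

/-- If `Hom (X, L ⊗ C) = 0` then `p` is surjective on `Hom (X, L)`. -/
theorem exists_smul_of_zero {X : T} (h0 : ∀ z : X ⟶ L ⊗ C, z = 0) (x : X ⟶ L) :
    ∃ y : X ⟶ L, x = p • y := exists_smul hC L x (h0 _)

/-- If `Hom (X, L ⊗ C)` is finite then `Hom (X, L)` has finitely many classes modulo `p`. -/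
theorem exists_rep {X : T} (hf : Finite (X ⟶ L ⊗ C)) :
    ∃ S : Set (X ⟶ L), S.Finite ∧ ∀ x, ∃ s ∈ S, ∃ y : X ⟶ L, x = s + p • y := by
  classical
  let f : (X ⟶ L) → (X ⟶ L ⊗ C) := fun x => x ≫ red L i
  have hr : ∀ z : Set.range f, ∃ x, f x = z := fun z => z.2
  choose g hg using hr
  refine ⟨Set.range g, Set.finite_range g, fun x => ?_⟩
  refine ⟨g ⟨f x, x, rfl⟩, ⟨_, rfl⟩, ?_⟩
  obtain ⟨y, hy⟩ := exists_smul hC L (x - g ⟨f x, x, rfl⟩) (by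
    rw [Preadditive.sub_comp, sub_eq_zero]
    exact (hg ⟨f x, x, rfl⟩).symm)
  exact ⟨y, by rw [← hy]; abel⟩

/-- If `Hom (X⟦1⟧, L ⊗ C)` is finite then the `p`-torsion of `Hom (X, L)` is finite. -/
theorem finite_of_finite {X : T} (hf : Finite (X⟦(1 : ℤ)⟧ ⟶ L ⊗ C)) :
    {x : X ⟶ L | p • x = 0}.Finite := by
  obtain ⟨d, hd⟩ := exists_dist hC L
  let f : (X⟦(1 : ℤ)⟧ ⟶ L ⊗ C) → (X ⟶ L) := fun z => (shiftFunctor T (1 : ℤ)).preimage (z ≫ d)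
  refine (Set.finite_range f).subset ?_
  intro x hx
  have hx' : x⟦(1 : ℤ)⟧' ≫ ((p : ℤ) • 𝟙 L)⟦(1 : ℤ)⟧' = 0 := by
    rw [← Functor.map_comp, Preadditive.comp_zsmul, Category.comp_id, natCast_zsmul]
    have : p • x = 0 := hx
    rw [this, Functor.map_zero]
  obtain ⟨z, hz⟩ := Triangle.coyoneda_exact₁ _ hd (x⟦(1 : ℤ)⟧') hx'
  change X⟦(1 : ℤ)⟧ ⟶ L ⊗ C at z
  refine ⟨z, ?_⟩
  apply (shiftFunctor T (1 : ℤ)).map_injective
  rw [Functor.map_preimage]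
  exact hz.symm

/-- If `Hom (X⟦1⟧, L ⊗ C) = 0` then `Hom (X, L)` has no `p`-torsion. -/
theorem eq_zero_of_zero {X : T} (h0 : ∀ z : X⟦(1 : ℤ)⟧ ⟶ L ⊗ C, z = 0) (x : X ⟶ L)
    (hx : p • x = 0) : x = 0 := by
  obtain ⟨d, hd⟩ := exists_dist hC L
  have hx' : x⟦(1 : ℤ)⟧' ≫ ((p : ℤ) • 𝟙 L)⟦(1 : ℤ)⟧' = 0 := by
    rw [← Functor.map_comp, Preadditive.comp_zsmul, Category.comp_id, natCast_zsmul, hx,
      Functor.map_zero]
  obtain ⟨z, hz⟩ := Triangle.coyoneda_exact₁ _ hd (x⟦(1 : ℤ)⟧') hx'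
  change X⟦(1 : ℤ)⟧ ⟶ L ⊗ C at z
  apply (shiftFunctor T (1 : ℤ)).map_injective
  rw [h0 z] at hz
  rw [Functor.map_zero]
  exact hz.trans zero_comp

end les

section compare

/-- If `K` and `K'` have the same acyclic objects among the objects `W` considered, the
localizations agree: `L_K 𝟙 ⊗ C ≅ L_{K'} C`. -/
theorem exists_iso_of_loc {K K' L C : T} (f : 𝟙_ T ⟶ L) (hf : IsIso (K ◁ f)) {p : ℕ}
    {i : 𝟙_ T ⟶ C} {δ : C ⟶ (𝟙_ T)⟦(1 : ℤ)⟧}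
    (hC : Triangle.mk ((p : ℤ) • 𝟙 (𝟙_ T)) i δ ∈ distTriang T) (hL : IsLocal K L)
    (h1 : ∀ W, Acyclic K' W → Acyclic K W) (h2 : ∀ W, Acyclic K W → Acyclic K' W)
    (F : LocFunctor K') : Nonempty (F.L.obj C ≅ L ⊗ C) := by
  have hloc : IsLocal K (L ⊗ C) := by
    obtain ⟨d, hd⟩ := exists_dist hC L
    exact IsLocal.ext₃ hd hL hL
  have hloc' : IsLocal K' (L ⊗ C) := fun W hW g => hloc (h1 W hW) g
  let g : C ⟶ L ⊗ C := (λ_ C).inv ≫ f ▷ C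
  have hg : IsIso (K ◁ (f ▷ C)) := by
    have e : K ◁ (f ▷ C) = (α_ K (𝟙_ T) C).inv ≫ ((K ◁ f) ▷ C) ≫ (α_ K L C).hom := by
      simp
    rw [e]
    infer_instance
  have hg' : IsIso (K' ◁ (f ▷ C)) := by
    obtain ⟨Z, a, d, hd⟩ := distinguished_cocone_triangle (f ▷ C)
    exact (acyclic₃_iff_isIso₁ hd).1 (h2 Z ((acyclic₃_iff_isIso₁ hd).2 hg))
  have hg'' : IsIso (K' ◁ g) := by
    change IsIso (K' ◁ ((λ_ C).inv ≫ f ▷ C))
    rw [whiskerLeft_comp]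
    infer_instance
  let B₁ : BLoc K' C := ⟨F.L.obj C, F.unit.app C, F.isIso C, F.isLocal C⟩
  let B₂ : BLoc K' C := ⟨L ⊗ C, g, hg'', hloc'⟩
  exact ⟨B₁.iso B₂⟩

end compare

end Vale.Agent.P261
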