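import Vale.Agent.P251.I.M2
import Vale.Agent.P251.M.LineIso
import Vale.Agent.P251.M.BGlueD
import Vale.Agent.P251.Z.CellsInst
import Vale.Agent.P251.Z.CompA
import Vale.Agent.P251.Z.KRev
import Vale.Agent.P251.Z.FinalA
import Vale.Agent.P261.H468.Stems
import Vale.Agent.P261.H468.Pi
import Vale.Agent.P261.H658.F

/-!
# P261: the homotopy of `L_{K(n)} S/p` in a stable homotopy category, `n² < 2 (p - 1)`
-/

open CategoryTheory MonoidalCategory Limits Pretriangulated MonObj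

set_option linter.unusedSectionVars false

universe v u

namespace Vale.Agent.P261

open Vale.Agent.P251 Vale.Agent.P251.T Vale.Agent.P251.M Vale.Agent.P251.S Vale.Agent.P251.F
  Vale.Agent.P251.I Vale.Agent.P251.Z

theorem not_dvd_of_sq {p n : ℕ} (hp : p.Prime) (hp2 : p ≠ 2) (hn : 1 ≤ n)
    (hsq : n * n < 2 * (p - 1)) : ¬ (p - 1) ∣ n := by
  intro hd
  have h1 : p - 1 ≤ n := Nat.le_of_dvd hn hd
  have h2 : 2 ≤ p - 1 := by have := hp.two_le; omega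
  have h3 : (p - 1) * 2 ≤ n * n := Nat.mul_le_mul h1 (h2.trans h1)
  omega

variable {T : Type u} [Category.{v} T] [Preadditive T] [HasZeroObject T]
    [HasShift T ℤ] [∀ n : ℤ, (shiftFunctor T n).Additive] [Pretriangulated T] [IsTriangulated T]
    [MonoidalCategory T] [SymmetricCategory T] [TensorTriangulated T] [MonoidalClosed T]
    [HasCoproducts.{0} T] [HasProducts.{0} T] [StableCat T] [LocallySmall.{0} T]

/-- The homotopy of `L ⊗ C`, for the `K(n)`-localization `L` of the sphere and the Moore object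
`C`. -/
structure MoorePi (p n : ℕ) (L C : T) : Prop where
  zero : ∀ t : ℤ, (∀ s : ℕ, s ≤ n * n → ¬ (2 * ((p : ℤ) - 1)) ∣ t + (s : ℤ)) →
    ∀ x : (𝟙_ T)⟦t⟧ ⟶ L ⊗ C, x = 0
  fin : ∀ t : ℤ, (2 * ((p : ℤ) - 1)) ∣ t → Finite ((𝟙_ T)⟦t⟧ ⟶ L ⊗ C)
  neg : 2 ≤ n → ∀ t : ℤ, (2 * ((p : ℤ) - 1)) ∣ t → t < 0 → ∀ x : (𝟙_ T)⟦t⟧ ⟶ L ⊗ C, x = 0

theorem moorePi (Fs : SpaceFunctor T) {p n : ℕ} [Fact p.Prime] (hp : p ≠ 2)
    (hn : 1 ≤ n) (hsq : n * n < 2 * (p - 1)) {K : T} [MonObj K] [IsCommMonObj K]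
    (o : Oriented Fs K) (hK : IsMoravaPos Fs p n o) {L : T} (f : 𝟙_ T ⟶ L) (hf : Z.IsLoc K f)
    {C : T} {i : 𝟙_ T ⟶ C} {δ : C ⟶ (𝟙_ T)⟦(1 : ℤ)⟧}
    (hC : Triangle.mk ((p : ℤ) • 𝟙 (𝟙_ T)) i δ ∈ distTriang T) : MoorePi p n L C := by
  have hpp : p.Prime := Fact.out
  have hd := not_dvd_of_sq hpp hp hn hsq
  obtain ⟨D, H⟩ := M.MU_univ T Fs (M.lineIso Fs)
  obtain ⟨Dk⟩ := exists_kosData D.P (p : ℤ) n (D.vs p)
  obtain ⟨F⟩ := nonempty_locFunctor' Dk.K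
  obtain ⟨U⟩ := exists_unitCof D.R
  let G : GrOut D U p n i F := grOut D U hp hn hC Dk F
  obtain ⟨e⟩ := exists_iso_of_loc f hf.1 hC hf.2
    (fun W hW => acyclic_of_kos H hn o hK Dk hW)
    (fun W hW => kos_of_acyclic H hp hn hC o hK Dk hW) F
  have hsq' : ((n * n : ℕ) : ℤ) < 2 * ((p : ℤ) - 1) := by
    have h1 : 1 ≤ p := hpp.one_le
    zify [h1] at hsq
    exact_mod_cast hsq
  have tr : ∀ (t : ℤ), (∀ x : (𝟙_ T)⟦t⟧ ⟶ F.L.obj C, x = 0) →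
      ∀ x : (𝟙_ T)⟦t⟧ ⟶ L ⊗ C, x = 0 := by
    intro t h0 x
    have h1 := h0 (x ≫ e.inv)
    rw [← cancel_mono e.inv, h1, zero_comp]
  have hw : ∀ t : ℤ, (2 * ((p : ℤ) - 1)) ∣ t → ∃ w, t = 2 * w := by
    rintro t ⟨c, rfl⟩
    exact ⟨((p : ℤ) - 1) * c, by ring⟩
  have hs : ∀ t : ℤ, (2 * ((p : ℤ) - 1)) ∣ t → ∀ s : ℕ, 1 ≤ s → s ≤ n * n →
      ¬ (2 * ((p : ℤ) - 1)) ∣ t + (s : ℤ) := by
    intro t ht s h1 h2 h3
    have h4 : (2 * ((p : ℤ) - 1)) ∣ (s : ℤ) := (Int.dvd_add_right ht).1 h3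
    have h5 := Int.le_of_dvd (by omega) h4
    have h6 : (s : ℤ) ≤ ((n * n : ℕ) : ℤ) := by exact_mod_cast h2
    omega
  refine ⟨fun t ht => tr t (pi_eq_zero G hp hn hd ht), fun t ht => ?_,
    fun hn2 t ht hneg => tr t ?_⟩
  · obtain ⟨w, hw⟩ := hw t ht
    obtain ⟨g, hg, hg'⟩ := exists_inj_zeroLine G hp hn hd hw (hs t ht)
    have := (zero_line_finite p n hn w).to_subtype
    have h1 : Finite ((𝟙_ T)⟦t⟧ ⟶ F.L.obj C) :=
      Finite.of_injective (fun x => (⟨g x, hg' x⟩ : zero_line p n w)) (fun x y hxy =>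
        hg (congrArg Subtype.val hxy))
    exact Finite.of_injective (fun x : (𝟙_ T)⟦t⟧ ⟶ L ⊗ C => x ≫ e.inv)
      (fun x y hxy => (cancel_mono e.inv).1 hxy)
  · obtain ⟨w, hw⟩ := hw t ht
    obtain ⟨g, hg, hg'⟩ := exists_inj_zeroLine G hp hn hd hw (hs t ht)
    intro x
    apply hg
    rw [zero_line_neg p n hn2 w (by omega) (g x) (hg' x),
      zero_line_neg p n hn2 w (by omega) (g 0) (hg' 0)]

end Vale.Agent.P261
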